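import Vale.Agent.P042.H258.NumA

/-!
# P042, power regime: the numbers of the multi-coordinate families

The family of index `(m, n, 1)` of `famQ` (constant `Kc (m n)^c`, `c ≥ 10`) against the
family of order `m` and top scale `n` of the local part (constant `(m n)^CK`, `CK > c`,
size `LF = (m n)^4`).
-/

set_option autoImplicit false

namespace Vale.Agent.P042.H736

open Filter

theorem log2_lo : (1 : ℝ) / 2 ≤ Real.log 2 := by
  have := Real.log_two_gt_d9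
  linarith

/-- the size of the family of order `m` and top scale `n` -/
noncomputable def lf (m n : ℕ) : ℝ := ((m : ℝ) * n) ^ 4

theorem lf_nonneg (m n : ℕ) : 0 ≤ lf m n := by
  unfold lf
  positivity

theorem lf_sq_le (m n : ℕ) : lf m n ^ 2 ≤ ((m * n : ℕ) : ℝ) ^ 8 := by
  unfold lf
  rw [← pow_mul]
  push_cast
  exact le_rfl

/-- `40000 LF² ≤ C0` and `72 a LF² ≤ C0` -/
theorem c0_ge {Kc c m n : ℕ} {A : ℝ} (hm : 1 ≤ m) (hn : 1 ≤ n) (hc : 10 ≤ c) (hA : 0 ≤ A)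
    (hKc : 64 * A ≤ Kc) :
    A * lf m n ^ 2 ≤ Kc * ((m * n * 1 : ℕ) : ℝ) ^ (c - 2) / 64 := by
  have h1 := lf_sq_le m n
  have hx : (1 : ℝ) ≤ ((m * n : ℕ) : ℝ) := by
    exact_mod_cast Nat.mul_pos hm hn
  have h2 : ((m * n : ℕ) : ℝ) ^ 8 ≤ ((m * n : ℕ) : ℝ) ^ (c - 2) :=
    pow_le_pow_right₀ hx (by omega)
  rw [mul_one]
  have h3 : A * lf m n ^ 2 ≤ A * ((m * n : ℕ) : ℝ) ^ (c - 2) :=
    mul_le_mul_of_nonneg_left (h1.trans h2) hA
  have h4 : 64 * A * ((m * n : ℕ) : ℝ) ^ (c - 2) ≤ Kc * ((m * n : ℕ) : ℝ) ^ (c - 2) :=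
    mul_le_mul_of_nonneg_right hKc (by positivity)
  linarith

/-- the constants: `Kc (m n)^c ≤ (m n)^CK` for large `n` -/
theorem k_le {Kc c CK : ℕ} (hcC : c < CK) {m n : ℕ} (hm : 1 ≤ m) (hn1 : 1 ≤ n) (hn : Kc ≤ n) :
    ((Kc * (m * n * 1) ^ c : ℕ) : ℝ) ≤ ((m : ℝ) * n) ^ CK := by
  have hmn : (1 : ℝ) ≤ (m : ℝ) * n := by exact_mod_cast Nat.mul_pos hm hn1
  obtain ⟨d, hd⟩ : ∃ d, CK = c + (d + 1) := ⟨CK - c - 1, by omega⟩
  have h3 : ((m : ℝ) * n) ^ c * ((m : ℝ) * n) ≤ ((m : ℝ) * n) ^ CK := by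
    rw [hd, pow_add]
    refine mul_le_mul_of_nonneg_left ?_ (by positivity)
    calc (m : ℝ) * n = ((m : ℝ) * n) ^ 1 := (pow_one _).symm
      _ ≤ ((m : ℝ) * n) ^ (d + 1) := pow_le_pow_right₀ hmn (by omega)
  have h4 : (Kc : ℝ) ≤ (m : ℝ) * n := by
    have h5 : (Kc : ℝ) ≤ n := by exact_mod_cast hn
    have h6 : (n : ℝ) ≤ m * n := le_mul_of_one_le_left (Nat.cast_nonneg n) (by exact_mod_cast hm)
    linarith
  push_cast
  calc (Kc : ℝ) * ((m : ℝ) * n * 1) ^ c = ((m : ℝ) * n) ^ c * Kc := by ring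
    _ ≤ ((m : ℝ) * n) ^ c * ((m : ℝ) * n) := by gcongr
    _ ≤ _ := h3

/-- the scale number is at most `C p` -/
theorem n_le {C1 p : ℝ} (hC1 : 0 ≤ C1) (hp : 1 ≤ p) {n : ℕ} (hn : n * Real.log 2 ≤ C1 * p + 1) :
    (n : ℝ) ≤ 2 * (C1 + 1) * p := by
  have h1 := log2_lo
  have h2 : (n : ℝ) * (1 / 2) ≤ n * Real.log 2 := mul_le_mul_of_nonneg_left h1 (Nat.cast_nonneg n)
  nlinarith

/-- **the numbers for large `p`**: `P = exp p`, orders `m ≤ exp (a p)`, scales `n log 2 ≤ C1 p + 1`,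
`a c < 1` -/
theorem num_ev {C1 g cB a kD : ℝ} {Kc c : ℕ} (hC1 : 0 ≤ C1) (hg : 0 < g) (hcB : 0 < cB)
    (ha : 0 ≤ a) (hac : a * c < 1) (hc : 10 ≤ c) (hKc : 1 ≤ Kc) (hkD : 0 < kD) :
    ∃ p0 : ℝ, 1 ≤ p0 ∧ ∀ p : ℝ, p0 ≤ p → ∀ m n : ℕ, 1 ≤ m → (m : ℝ) ≤ Real.exp (a * p) → 1 ≤ n →
      n * Real.log 2 ≤ C1 * p + 1 →
      4 / cB * ((n : ℝ) * (1 + n)) ≤ Real.exp p ^ g ∧
      1408 * Real.exp (1 - cB * Real.exp p / (2 * (((Kc * (m * n * 1) ^ c : ℕ) : ℝ) * n))) *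
        lf m n ≤ 1 ∧
      6 * lf m n ≤ kD * Real.exp p := by
  -- everything in terms of `P = exp p`
  have hc' : (10 : ℝ) ≤ c := by exact_mod_cast hc
  have ha4 : a * 4 < 1 := by nlinarith
  obtain ⟨D, hD⟩ : ∃ D : ℝ, D = 2 * (C1 + 1) := ⟨_, rfl⟩
  have hD0 : 0 < D := by rw [hD]; linarith
  have e1 := H258.ev_log hg 2 (8 / cB * D ^ 2)
  -- the exponent of the tail is at least `P^δ`
  obtain ⟨δ, hδ⟩ : ∃ δ : ℝ, δ = (1 - a * c) / 2 := ⟨_, rfl⟩
  have hδ0 : 0 < δ := by rw [hδ]; linarith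
  have e2 := H258.ev_rpow_log (a := a * c + δ) (b := 1) (by rw [hδ]; linarith) (c + 1)
    (2 * Kc * D ^ (c + 1) / cB)
  have e3 := H258.ev_rpow_log (a := a * 4) (b := 1) ha4 4 (6 * D ^ 4 / kD)
  have e4 := H258.ev_log hδ0 1 10
  have e5 := H258.ev_log (show (0 : ℝ) < 1 by norm_num) 4 (1408 * Real.exp 1 * D ^ 4)
  have e6 := H258.ev_log_ge 1
  obtain ⟨P0, hP0⟩ := Filter.eventually_atTop.mp (e1.and (e2.and (e3.and (e4.and (e5.and e6)))))
  refine ⟨max 1 (Real.log (max P0 1)), le_max_left _ _, fun p hp m n hm hma hn hnp => ?_⟩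
  have hp1 : 1 ≤ p := (le_max_left _ _).trans hp
  have hPP : P0 ≤ Real.exp p := by
    have h1 : Real.log (max P0 1) ≤ p := (le_max_right _ _).trans hp
    have h2 := Real.exp_le_exp.2 h1
    rw [Real.exp_log (by positivity)] at h2
    exact (le_max_left _ _).trans h2
  obtain ⟨f1, f2, f3, f4, f5, f6⟩ := hP0 _ hPP
  rw [Real.log_exp] at f1 f2 f3 f4 f5 f6
  have hP : 0 < Real.exp p := Real.exp_pos p
  have hnD : (n : ℝ) ≤ D * p := by rw [hD]; exact n_le hC1 hp1 hnp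
  have hn0 : (1 : ℝ) ≤ n := by exact_mod_cast hn
  have hm0 : (1 : ℝ) ≤ m := by exact_mod_cast hm
  have hmP : (m : ℝ) ≤ Real.exp p ^ a := by
    rw [← Real.exp_mul, mul_comm]; exact hma
  have hlf : lf m n ≤ (Real.exp p ^ a) ^ 4 * (D * p) ^ 4 := by
    unfold lf
    rw [mul_pow]
    gcongr
  have hPa4 : (Real.exp p ^ a) ^ 4 = Real.exp p ^ (a * 4) := by
    rw [Real.rpow_mul hP.le]; norm_cast
  refine ⟨?_, ?_, ?_⟩
  · refine le_trans ?_ f1
    have h1 : (n : ℝ) * (1 + n) ≤ 2 * (D * p) ^ 2 := by nlinarith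
    calc 4 / cB * ((n : ℝ) * (1 + n)) ≤ 4 / cB * (2 * (D * p) ^ 2) := by gcongr
      _ = 8 / cB * D ^ 2 * p ^ 2 := by ring
  · -- the tail
    have hKn : ((Kc * (m * n * 1) ^ c : ℕ) : ℝ) * n ≤
        Kc * D ^ (c + 1) * Real.exp p ^ (a * c) * p ^ (c + 1) := by
      push_cast
      rw [mul_one, mul_pow]
      have h1 : ((m : ℝ)) ^ c ≤ Real.exp p ^ (a * c) := by
        rw [Real.rpow_mul hP.le, Real.rpow_natCast]
        exact pow_le_pow_left₀ (by positivity) hmP c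
      have h2 : (n : ℝ) ^ c * n ≤ (D * p) ^ (c + 1) := by
        rw [← pow_succ]
        exact pow_le_pow_left₀ (by positivity) hnD (c + 1)
      calc (Kc : ℝ) * ((m : ℝ) ^ c * (n : ℝ) ^ c) * n = Kc * ((m : ℝ) ^ c * ((n : ℝ) ^ c * n)) := by
            ring
        _ ≤ Kc * (Real.exp p ^ (a * c) * (D * p) ^ (c + 1)) := by gcongr
        _ = _ := by rw [mul_pow]; ring
    have hK0 : (0 : ℝ) < ((Kc * (m * n * 1) ^ c : ℕ) : ℝ) * n := by
      have h1 : 0 < Kc * (m * n * 1) ^ c := by positivity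
      have h2 : (0 : ℝ) < ((Kc * (m * n * 1) ^ c : ℕ) : ℝ) := by exact_mod_cast h1
      positivity
    have hX : Real.exp p ^ δ ≤
        cB * Real.exp p / (2 * (((Kc * (m * n * 1) ^ c : ℕ) : ℝ) * n)) := by
      rw [le_div_iff₀ (by positivity)]
      have h1 : Real.exp p ^ (a * c + δ) = Real.exp p ^ (a * c) * Real.exp p ^ δ :=
        Real.rpow_add hP _ _
      have h2 : 2 * Kc * D ^ (c + 1) / cB * (Real.exp p ^ (a * c) * Real.exp p ^ δ) * p ^ (c + 1) ≤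
          Real.exp p := by
        rw [← h1]
        refine f2.trans (le_of_eq ?_)
        rw [Real.rpow_one]
      have h3 := mul_le_mul_of_nonneg_left h2 hcB.le
      calc Real.exp p ^ δ * (2 * (((Kc * (m * n * 1) ^ c : ℕ) : ℝ) * n))
          ≤ Real.exp p ^ δ * (2 * (Kc * D ^ (c + 1) * Real.exp p ^ (a * c) * p ^ (c + 1))) := by
            gcongr
        _ = cB * (2 * Kc * D ^ (c + 1) / cB * (Real.exp p ^ (a * c) * Real.exp p ^ δ) *
              p ^ (c + 1)) := by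
            field_simp
        _ ≤ _ := h3
    -- `P^δ ≥ 10 p`, so `exp (1 - P^δ) ≤ e P^{-10}`
    have h10 : 10 * p ≤ Real.exp p ^ δ := by simpa using f4
    have h11 : Real.exp (1 - cB * Real.exp p / (2 * (((Kc * (m * n * 1) ^ c : ℕ) : ℝ) * n))) ≤
        Real.exp 1 * Real.exp (-(10 * p)) := by
      rw [← Real.exp_add]
      exact Real.exp_le_exp.2 (by linarith)
    have h12 : lf m n ≤ Real.exp p * (D * p) ^ 4 := by
      refine hlf.trans ?_
      rw [hPa4]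
      refine mul_le_mul_of_nonneg_right ?_ (by positivity)
      calc Real.exp p ^ (a * 4) ≤ Real.exp p ^ (1 : ℝ) :=
            Real.rpow_le_rpow_of_exponent_le (Real.one_le_exp (by linarith)) ha4.le
        _ = Real.exp p := Real.rpow_one _
    have h13 : 1408 * Real.exp 1 * D ^ 4 * p ^ 4 ≤ Real.exp p := by
      refine f5.trans (le_of_eq ?_)
      rw [Real.rpow_one]
    calc 1408 * Real.exp (1 - cB * Real.exp p / (2 * (((Kc * (m * n * 1) ^ c : ℕ) : ℝ) * n))) *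
          lf m n
        ≤ 1408 * (Real.exp 1 * Real.exp (-(10 * p))) * (Real.exp p * (D * p) ^ 4) := by
          have := lf_nonneg m n
          gcongr
      _ = (1408 * Real.exp 1 * D ^ 4 * p ^ 4) * (Real.exp (-(10 * p)) * Real.exp p) := by
          rw [mul_pow]; ring
      _ ≤ Real.exp p * (Real.exp (-(10 * p)) * Real.exp p) := by gcongr
      _ = Real.exp (-(8 * p)) := by
          rw [← Real.exp_add, ← Real.exp_add]
          congr 1
          ring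
      _ ≤ 1 := by
          rw [Real.exp_le_one_iff]
          linarith
  · -- `6 LF ≤ kD P`
    have h1 : 6 * D ^ 4 / kD * Real.exp p ^ (a * 4) * p ^ 4 ≤ Real.exp p := by
      refine f3.trans (le_of_eq ?_)
      rw [Real.rpow_one]
    have h2 := mul_le_mul_of_nonneg_left h1 hkD.le
    calc 6 * lf m n ≤ 6 * (Real.exp p ^ (a * 4) * (D * p) ^ 4) := by
          rw [← hPa4]; linarith
      _ = kD * (6 * D ^ 4 / kD * Real.exp p ^ (a * 4) * p ^ 4) := by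
          rw [mul_pow]
          field_simp
      _ ≤ _ := h2

end Vale.Agent.P042.H736
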