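import Vale.Agent.P042.H103.FamS
import Vale.Agent.P042.H972.FamP
import Vale.Agent.P042.H736.NumM

/-!
# P042, power regime: the families of the state serve the families of the local part

`famNum_famP`: 103's `FamNum` for 972's list `famP`: for every order `m` and top scale `n` of
`PLaw.mei` the family of index `(m, n, 1)` has all the required numbers.
The threshold of `K0` depends only on the constant `Kc` of the families.
-/

set_option autoImplicit false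

namespace Vale.Agent.P042.H736

open Finset Vale.Agent.P042.H972
open Vale.Agent.P042.H599 (bwt FamOk)
open Vale.Agent.P042.H92 (Prm LF)

theorem LF_eq (m n : ℕ) : LF m n = lf m n := rfl

/-- the rates -/
theorem rate_le_tL {Kc c CK : ℕ} {g G p P : ℝ} {m n y : ℕ} (hP : Real.exp p = P) (hp : 0 ≤ p)
    (hgG : g ≤ G) (hK0 : 1 ≤ KL Kc c (m, n, 1))
    (hK : ((KL Kc c (m, n, 1) : ℕ) : ℝ) ≤ ((m : ℝ) * n) ^ CK) :
    min 1 (Real.exp ((1 - G) * p) / y) / ((m : ℝ) * n) ^ CK ≤ tL Kc c g P (m, n, 1) y := by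
  have hKr : (0 : ℝ) < KL Kc c (m, n, 1) := by exact_mod_cast hK0
  have h3 : P ^ (1 - g) = Real.exp ((1 - g) * p) := by
    rw [← hP, ← Real.exp_mul, mul_comm]
  have h1 : min 1 (Real.exp ((1 - G) * p) / y) ≤ min 1 (P ^ (1 - g) / y) := by
    refine min_le_min le_rfl ?_
    rw [h3]
    refine div_le_div_of_nonneg_right ?_ (Nat.cast_nonneg y)
    apply Real.exp_le_exp.2
    exact mul_le_mul_of_nonneg_right (by linarith) hp
  have h4 : 0 ≤ min 1 (Real.exp ((1 - G) * p) / (y : ℝ)) :=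
    le_min zero_le_one (by positivity)
  unfold tL
  calc min 1 (Real.exp ((1 - G) * p) / y) / ((m : ℝ) * n) ^ CK
      ≤ min 1 (Real.exp ((1 - G) * p) / y) / KL Kc c (m, n, 1) := by
        exact div_le_div_of_nonneg_left h4 hKr hK
    _ ≤ min 1 (P ^ (1 - g) / y) / KL Kc c (m, n, 1) := by gcongr

/-- **the families of the state are sufficient** -/
theorem famNum_famP {Kc c CK : ℕ} (hc : 10 ≤ c) (hcC : c < CK) (hKc : 2560000 ≤ Kc)
    {K0 : ℕ} (hK0 : 2 ^ Kc ≤ K0) {C1 a1 a3 g cB kD ac : ℝ} (hC1 : 0 ≤ C1) (hg : 0 < g)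
    (hcB : 0 < cB) (ha : 0 ≤ a1) (ha3 : 0 ≤ a3) (hac : a1 * c < 1) (hkD : 0 < kD)
    (hac0 : 0 ≤ ac) (hacK : 4608 * ac ≤ Kc) :
    ∃ p0 : ℝ, 1 ≤ p0 ∧ ∀ (Q : Prm) (P : ℝ), p0 ≤ Q.p → Real.exp Q.p = P → Q.CK = CK →
      Q.C1 = C1 → g ≤ Q.G → 2 * Q.d1 ≤ a1 → ∀ W : Finset ℕ,
        (∀ x : ℕ, x ∈ W ↔ x.Prime ∧ K0 < x ∧ (x : ℝ) ≤ P ^ C1) → ∀ Dm : ℝ, kD * P ≤ Dm →
          H103.FamNum (famP Kc c K0 C1 a1 a3 g cB P) Q W K0 ac Dm := by
  have hKc1 : 1 ≤ Kc := by omega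
  obtain ⟨p0, hp0, H⟩ := num_ev (C1 := C1) (g := g) (cB := cB) (a := a1) (kD := kD) (Kc := Kc)
    (c := c) hC1 hg hcB ha hac hc hKc1 hkD
  refine ⟨p0, hp0, ?_⟩
  intro Q P hp hP hCK hQC hgG hd W hW Dm hDm m n hm hma hn hnC hKn
  have hp1 : 1 ≤ Q.p := hp0.trans hp
  have hP1 : 1 ≤ P := by rw [← hP]; exact Real.one_le_exp (by linarith)
  have hP0 : 0 < P := by linarith
  have hma' : (m : ℝ) ≤ Real.exp (a1 * Q.p) :=
    hma.trans (Real.exp_le_exp.2 (mul_le_mul_of_nonneg_right hd (by linarith)))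
  -- the scale is large
  have hnK : Kc < n := (Nat.pow_lt_pow_iff_right (by norm_num)).1 (hK0.trans_lt hKn)
  rw [hQC] at hnC
  obtain ⟨f1, f2, f3⟩ := H Q.p hp m n hm hma' hn hnC
  rw [hP] at f1 f2 f3
  have hmem : (m, n, 1) ∈ (famP Kc c K0 C1 a1 a3 g cB P).F := by
    rw [mem_famP hC1 hP1]
    refine ⟨⟨hm, ?_⟩, ⟨hn, ?_⟩, ⟨le_rfl, ?_⟩⟩
    · show (m : ℝ) ≤ P ^ a1
      rw [← hP, ← Real.exp_mul, mul_comm]
      exact hma'
    · show (2 : ℝ) ^ n ≤ 8 * P ^ C1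
      have h1 : (2 : ℝ) ^ n = Real.exp (n * Real.log 2) := by
        rw [mul_comm, Real.exp_mul, Real.exp_log (by norm_num), Real.rpow_natCast]
      have h2 : P ^ C1 = Real.exp (C1 * Q.p) := by
        rw [← hP, ← Real.exp_mul, mul_comm]
      have h3 : Real.exp 1 ≤ 8 := by
        have := Real.exp_one_lt_d9
        linarith
      rw [h1, h2]
      calc Real.exp (n * Real.log 2) ≤ Real.exp (C1 * Q.p + 1) := Real.exp_le_exp.2 hnC
        _ = Real.exp 1 * Real.exp (C1 * Q.p) := by rw [Real.exp_add, mul_comm]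
        _ ≤ 8 * Real.exp (C1 * Q.p) := mul_le_mul_of_nonneg_right h3 (Real.exp_pos _).le
    · show ((1 : ℕ) : ℝ) ≤ P ^ a3
      rw [Nat.cast_one]
      exact Real.one_le_rpow hP1 ha3
  have hKL1 : 1 ≤ KL Kc c (m, n, 1) := KL_pos hKc1 hm hn le_rfl
  have hC0 : (famP Kc c K0 C1 a1 a3 g cB P).ω (m, n, 1) *
      (famP Kc c K0 C1 a1 a3 g cB P).K (m, n, 1) =
      Kc * ((m * n * 1 : ℕ) : ℝ) ^ (c - 2) / 64 := famL_C0 (by omega) hmem
  have hmn : (n : ℝ) ≤ (m : ℝ) * n :=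
    le_mul_of_one_le_left (Nat.cast_nonneg n) (by exact_mod_cast hm)
  refine ⟨(m, n, 1), hmem, ?_, ?_, ?_, ?_, ?_, ?_, ?_⟩
  · ext x
    rw [mem_famP_W hP0.le, mem_filter, hW]
    show x.Prime ∧ K0 < x ∧ (x : ℝ) ≤ P ^ C1 ∧ x ≤ 2 ^ n ↔ _
    tauto
  · -- `10 ≤ LF`
    have h1 : (2 : ℝ) ≤ n := by
      have : 2 ≤ n := by omega
      exact_mod_cast this
    unfold LF
    calc (10 : ℝ) ≤ 2 ^ 4 := by norm_num
      _ ≤ ((m : ℝ) * n) ^ 4 := pow_le_pow_left₀ (by norm_num) (h1.trans hmn) 4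
  · rw [hC0, LF_eq]
    refine c0_ge hm hn hc (by norm_num) ?_
    have : (2560000 : ℝ) ≤ Kc := by exact_mod_cast hKc
    linarith
  · rw [hC0, LF_eq]
    refine c0_ge hm hn hc (by positivity) ?_
    linarith
  · rw [LF_eq]
    exact f3.trans hDm
  · refine ⟨_, famL_tail' (K0 := K0) (Y := ⌊P ^ C1⌋₊) (f := (m, n, 1)) hP0 hcB hKL1 hn f1, ?_⟩
    rw [LF_eq]
    exact f2
  · intro x _ _
    rw [hCK]
    exact rate_le_tL hP (by linarith) hgG hKL1 (k_le hcC hm hn hnK.le)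

end Vale.Agent.P042.H736
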